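import Vale.Agent.P227.M.ID.Pos

/-! # P227/M/DU922: pointwise algebra for the dual key inequality `StmtKeyD` (helper922) -/

namespace Vale.Agent.P227.M.DU922

open Matrix Finset

variable {n : ℕ}

/-- square matrices -/
abbrev Mt (n : ℕ) := Matrix (Fin n) (Fin n) ℝ

/-- the pairing of two families of matrices (three-tensors) -/
noncomputable def q (t : Mt n) (A B : Fin n → Mt n) : ℝ :=
  ∑ c, ∑ d, t c d * ((A d)ᵀ * t * B c * t).trace

theorem q_add_left (t : Mt n) (A A' B : Fin n → Mt n) :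
    q t (fun c => A c + A' c) B = q t A B + q t A' B := by
  unfold q
  simp only [transpose_add, Matrix.add_mul, trace_add, mul_add, Finset.sum_add_distrib]

theorem q_add_right (t : Mt n) (A B B' : Fin n → Mt n) :
    q t A (fun c => B c + B' c) = q t A B + q t A B' := by
  unfold q
  simp only [mul_add, Matrix.add_mul, trace_add, Finset.sum_add_distrib]

theorem q_sub_left (t : Mt n) (A A' B : Fin n → Mt n) :
    q t (fun c => A c - A' c) B = q t A B - q t A' B := by
  unfold q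
  simp only [transpose_sub, Matrix.sub_mul, trace_sub, mul_sub, Finset.sum_sub_distrib]

theorem q_sub_right (t : Mt n) (A B B' : Fin n → Mt n) :
    q t A (fun c => B c - B' c) = q t A B - q t A B' := by
  unfold q
  simp only [mul_sub, Matrix.sub_mul, trace_sub, Finset.sum_sub_distrib]

theorem q_symm {t : Mt n} (ht : tᵀ = t) (A B : Fin n → Mt n) : q t A B = q t B A := by
  unfold q
  rw [Finset.sum_comm]
  refine Finset.sum_congr rfl fun d _ => Finset.sum_congr rfl fun c _ => ?_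
  have h1 : t c d = t d c := by
    conv_lhs => rw [← ht]
    rfl
  rw [h1]
  congr 1
  rw [← trace_transpose]
  simp only [transpose_mul, transpose_transpose, ht]
  rw [trace_mul_comm]
  simp only [Matrix.mul_assoc]

theorem q_tr {t : Mt n} (ht : tᵀ = t) (A B : Fin n → Mt n) :
    q t (fun c => (A c)ᵀ) (fun c => (B c)ᵀ) = q t A B := by
  unfold q
  refine Finset.sum_congr rfl fun c _ => Finset.sum_congr rfl fun d _ => ?_
  congr 1
  rw [← trace_transpose]
  simp only [transpose_mul, transpose_transpose, ht]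
  rw [trace_mul_comm, trace_mul_comm ((A d)ᵀ * t * B c) t]
  simp only [Matrix.mul_assoc]
  rw [trace_mul_comm]
  simp only [Matrix.mul_assoc]

/-- entries -/
theorem q_eq (t : Mt n) (A B : Fin n → Mt n) :
    q t A B = ∑ c, ∑ d, ∑ b, ∑ b', ∑ a', ∑ a, t c d * (A d a b * t a a' * B c a' b' * t b' b) := by
  unfold q
  refine Finset.sum_congr rfl fun c _ => Finset.sum_congr rfl fun d _ => ?_
  simp only [trace, diag_apply, Matrix.mul_apply, transpose_apply, Finset.sum_mul, Finset.mul_sum]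

/-- nested sums as a sum over a product -/
theorem sum6 {ι : Type*} [Fintype ι] (G : ι → ι → ι → ι → ι → ι → ℝ) :
    ∑ c, ∑ d, ∑ b, ∑ b', ∑ a', ∑ a, G c d b b' a' a
      = ∑ p : ι × ι × ι × ι × ι × ι, G p.1 p.2.1 p.2.2.1 p.2.2.2.1 p.2.2.2.2.1 p.2.2.2.2.2 := by
  simp only [Fintype.sum_prod_type]

theorem sum6_swap {ι : Type*} [Fintype ι] (G : ι → ι → ι → ι → ι → ι → ℝ) :
    ∑ c, ∑ d, ∑ b, ∑ b', ∑ a', ∑ a, G c d b b' a' a
      = ∑ c, ∑ d, ∑ b, ∑ b', ∑ a', ∑ a, G a' a b b' c d := by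
  rw [sum6, sum6]
  refine Fintype.sum_equiv
    ⟨fun p => (p.2.2.2.2.1, p.2.2.2.2.2, p.2.2.1, p.2.2.2.1, p.1, p.2.1),
      fun p => (p.2.2.2.2.1, p.2.2.2.2.2, p.2.2.1, p.2.2.2.1, p.1, p.2.1),
      fun p => rfl, fun p => rfl⟩ _ _ (fun p => rfl)

theorem sum6_rot {ι : Type*} [Fintype ι] (G : ι → ι → ι → ι → ι → ι → ℝ) :
    ∑ c, ∑ d, ∑ b, ∑ b', ∑ a', ∑ a, G c d b b' a' a
      = ∑ d, ∑ a, ∑ b, ∑ c, ∑ a', ∑ b', G c d b b' a' a := by
  rw [sum6, sum6 (fun d a b c a' b' => G c d b b' a' a)]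
  refine Fintype.sum_equiv
    ⟨fun p => (p.2.1, p.2.2.2.2.2, p.2.2.1, p.1, p.2.2.2.2.1, p.2.2.2.1),
      fun p => (p.2.2.2.1, p.1, p.2.2.1, p.2.2.2.2.2, p.2.2.2.2.1, p.2.1),
      fun p => rfl, fun p => rfl⟩ _ _ (fun p => rfl)

/-- swapping the first two slots -/
def sg (A : Fin n → Mt n) : Fin n → Mt n := fun c => Matrix.of fun a b => A a c b

theorem q_sg {t : Mt n} (ht : tᵀ = t) (A B : Fin n → Mt n) : q t (sg A) (sg B) = q t A B := by
  have hs : ∀ a b, t a b = t b a := fun a b => by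
    conv_lhs => rw [← ht]
    rfl
  rw [q_eq, q_eq, sum6_swap]
  refine Finset.sum_congr rfl fun c _ => Finset.sum_congr rfl fun d _ =>
    Finset.sum_congr rfl fun b _ => Finset.sum_congr rfl fun b' _ =>
    Finset.sum_congr rfl fun a' _ => Finset.sum_congr rfl fun a _ => ?_
  simp only [sg, of_apply]
  rw [hs a' a, hs d c]
  ring

theorem q_nonneg {t : Mt n} (hp : t.PosSemidef) (A : Fin n → Mt n) : 0 ≤ q t A A := by
  have ht : tᵀ = t := by
    have := hp.1
    rwa [IsHermitian, conjTranspose_eq_transpose_of_trivial] at this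
  have hs : ∀ a b, t a b = t b a := fun a b => by
    conv_lhs => rw [← ht]
    rfl
  rw [q_eq, sum6_rot]
  refine (ID.tensor3_nonneg hp hp hp (fun d a b => A d a b)).trans_eq ?_
  refine Finset.sum_congr rfl fun d _ => Finset.sum_congr rfl fun a _ =>
    Finset.sum_congr rfl fun b _ => Finset.sum_congr rfl fun c _ =>
    Finset.sum_congr rfl fun a' _ => Finset.sum_congr rfl fun b' _ => ?_
  rw [hs c d, hs b' b]
  ring

/-- (L1) the sum lemma for families symmetric in the first two slots -/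
theorem sum_L1 (t : Mt n) (Y K : Fin n → Mt n) (hY : ∀ a c b, Y a c b = Y c a b) :
    ∑ a, ∑ c, (t * Y a * K c) c a = ∑ c, ∑ d, t c d * (Y d * K c).trace := by
  rw [Finset.sum_comm]
  refine Finset.sum_congr rfl fun c _ => ?_
  have h1 : ∀ a, (t * Y a * K c) c a = ∑ d, t c d * ∑ e, Y d a e * K c e a := by
    intro a
    rw [Matrix.mul_assoc, Matrix.mul_apply]
    refine Finset.sum_congr rfl fun d _ => ?_
    rw [Matrix.mul_apply]
    congr 1
    exact Finset.sum_congr rfl fun e _ => by rw [hY a d e]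
  rw [Finset.sum_congr rfl fun a _ => h1 a, Finset.sum_comm]
  refine Finset.sum_congr rfl fun d _ => ?_
  rw [← Finset.mul_sum]
  congr 1

/-- positivity of the final quadratic form -/
theorem form_nonneg {t : Mt n} (hp : t.PosSemidef) (ν P : Fin n → Mt n)
    (hP : ∀ a c b, P a c b = P c a b)
    (Λ : Fin n → Mt n) (hΛ : ∀ c a b, Λ c a b = ν b c a) :
    0 ≤ 2 * q t ν ν - 2 * q t P ν - 2 * q t P Λ + q t P P + q t P (fun c => (P c)ᵀ) := by
  have ht : tᵀ = t := by
    have := hp.1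
    rwa [IsHermitian, conjTranspose_eq_transpose_of_trivial] at this
  have hPs : sg P = P := by
    funext c
    ext a b
    exact hP a c b
  have hΛs : sg (fun c => (Λ c)ᵀ) = ν := by
    funext c
    ext a b
    show Λ a b c = ν c a b
    rw [hΛ]
  set ΛT : Fin n → Mt n := fun c => (Λ c)ᵀ with hΛT
  set PT : Fin n → Mt n := fun c => (P c)ᵀ with hPT
  -- values
  have e1 : q t P ΛT = q t P ν := by
    rw [← q_sg ht P ΛT, hPs, hΛs]
  have e2 : q t ΛT ΛT = q t ν ν := by
    rw [← q_sg ht ΛT ΛT, hΛs]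
  have e3 : q t ΛT ΛT = q t Λ Λ := q_tr ht Λ Λ
  have e4 : q t PT PT = q t P P := q_tr ht P P
  have e5 : q t PT ΛT = q t P Λ := q_tr ht P Λ
  have e6 : q t PT Λ = q t P ΛT := by
    have := q_tr ht PT Λ
    rw [← this]
    simp only [hPT, hΛT, transpose_transpose]
  have e7 : q t PT P = q t P PT := q_symm ht _ _
  have e8 : q t ΛT Λ = q t Λ ΛT := q_symm ht _ _
  have e9 : ∀ A B : Fin n → Mt n, q t A B = q t B A := q_symm ht
  have n1 := q_nonneg hp (fun c => (P c + PT c) - (Λ c + ΛT c))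
  have n2 := q_nonneg hp (fun c => Λ c - ΛT c)
  rw [q_sub_left, q_sub_right, q_sub_right, q_add_left, q_add_left, q_add_right, q_add_right,
    q_add_right, q_add_right, q_add_left, q_add_left, q_add_right, q_add_right,
    q_add_right, q_add_right] at n1
  rw [q_sub_left, q_sub_right, q_sub_right] at n2
  rw [e9 Λ P, e9 Λ PT, e9 ΛT P, e9 ΛT PT, e7, e8, e6, e5, e4, e3.symm.trans e2, e2, e1] at n1
  rw [e8, e2, e3.symm.trans e2] at n2
  linarith

/-- value of `q t Λᵀ-type` pairings -/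
theorem q_vals {t : Mt n} (ht : tᵀ = t) (ν P : Fin n → Mt n)
    (hν : ∀ c, (ν c)ᵀ = ν c) (hP : ∀ a c b, P a c b = P c a b)
    (Λ : Fin n → Mt n) (hΛ : ∀ c a b, Λ c a b = ν b c a) :
    q t P (fun c => (Λ c)ᵀ) = q t P ν ∧ q t (fun c => (P c)ᵀ) ν = q t P ν ∧
    q t ν (fun c => (P c)ᵀ) = q t P ν ∧ q t (fun c => (P c)ᵀ) (fun c => (P c)ᵀ) = q t P P := by
  have hPs : sg P = P := by
    funext c
    ext a b
    exact hP a c b
  have hΛs : sg (fun c => (Λ c)ᵀ) = ν := by
    funext c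
    ext a b
    show Λ a b c = ν c a b
    rw [hΛ]
  have hνf : (fun c => (ν c)ᵀ) = ν := funext hν
  have h2 : q t (fun c => (P c)ᵀ) ν = q t P ν := by
    have := q_tr ht P ν
    rwa [hνf] at this
  refine ⟨?_, h2, ?_, q_tr ht P P⟩
  · rw [← q_sg ht P (fun c => (Λ c)ᵀ), hPs, hΛs]
  · rw [q_symm ht, h2]

/-- **the pointwise inequality** -/
theorem total_nonneg {t : Mt n} (hp : t.PosSemidef) {N Z : Mt n} (hN : Nᵀ = N)
    {Ψ Ω ν : Fin n → Mt n} (hΨ : ∀ c, (Ψ c)ᵀ = Ψ c) (hΨs : ∀ a c b, Ψ a c b = Ψ c a b)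
    (hν : ∀ c, (ν c)ᵀ = ν c) (hΩ : ∀ c a b, Ω c a b = ν c a b + ν a c b - ν b c a)
    {p dM dS dW1 dW2 : Fin n → Mt n} (hpp : ∀ a, p a = -(t * Ψ a * t))
    (hdM : ∀ c, dM c = p c * N * t + t * ν c * t + t * N * p c)
    (hdS : ∀ a, dS a = p a * Z + t * Ω a)
    (hdW1 : ∀ c, dW1 c = dM c * Zᵀ + t * N * t * (Ω c)ᵀ)
    (hdW2 : ∀ c, dW2 c = dM c * N + t * N * t * ν c) :
    0 ≤ 2 * (∑ a, ∑ b, ∑ c, dS a c b * dM c a b) - 2 * (∑ a, ∑ c, ∑ d, p a c d * dW1 c a d)
      + ∑ a, ∑ i, ∑ j, p a i j * dW2 i a j := by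
  have ht : tᵀ = t := by
    have := hp.1
    rwa [IsHermitian, conjTranspose_eq_transpose_of_trivial] at this
  set Λ : Fin n → Mt n := fun c => Matrix.of fun a b => ν b c a with hΛd
  have hΛ : ∀ c a b, Λ c a b = ν b c a := fun c a b => rfl
  set P : Fin n → Mt n := fun c => Ψ c * t * N with hPd
  have hP : ∀ a c b, P a c b = P c a b := by
    intro a c b
    simp only [hPd]
    rw [Matrix.mul_assoc, Matrix.mul_assoc, Matrix.mul_apply, Matrix.mul_apply]
    exact Finset.sum_congr rfl fun e _ => by rw [hΨs a c e]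
  have hPT : ∀ c, (P c)ᵀ = N * t * Ψ c := by
    intro c
    simp only [hPd, transpose_mul, hN, ht, hΨ, Matrix.mul_assoc]
  set X : Fin n → Mt n := fun c => (ν c - P c) - (P c)ᵀ with hXd
  have hXT : ∀ c, (X c)ᵀ = X c := by
    intro c
    simp only [hXd, transpose_sub, transpose_transpose, hν]
    abel
  have hX' : ∀ c, X c = (ν c - Ψ c * t * N) - N * t * Ψ c := by
    intro c
    rw [← hPT c]
  have hdMX : ∀ c, dM c = t * X c * t := by
    intro c
    rw [hdM, hpp, hX']
    simp only [Matrix.mul_sub, Matrix.sub_mul, Matrix.neg_mul, Matrix.mul_neg,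
      Matrix.mul_assoc]
    abel
  have hdMT : ∀ c, (dM c)ᵀ = dM c := by
    intro c
    rw [hdMX]
    simp only [transpose_mul, ht, hXT, Matrix.mul_assoc]
  have hΩf : Ω = fun c => (ν c + (Λ c)ᵀ) - Λ c := by
    funext c
    ext a b
    rw [hΩ]
    rfl
  have hΩs : ∀ a c b, Ω a c b = Ω c a b := by
    intro a c b
    rw [hΩ, hΩ]
    have h1 : ν b a c = ν b c a := by
      conv_lhs => rw [← hν b]
      rfl
    rw [h1]
    ring
  -- step 1 : the three sums as `∑ a, ∑ c, (…) c a`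
  have s1 : ∑ a, ∑ b, ∑ c, dS a c b * dM c a b = ∑ a, ∑ c, (dS a * dM c) c a := by
    refine Finset.sum_congr rfl fun a _ => ?_
    rw [Finset.sum_comm]
    refine Finset.sum_congr rfl fun c _ => ?_
    rw [Matrix.mul_apply]
    refine Finset.sum_congr rfl fun b _ => ?_
    congr 1
    conv_lhs => rw [← hdMT c]
    rfl
  have s2 : ∑ a, ∑ c, ∑ d, p a c d * dW1 c a d = ∑ a, ∑ c, (p a * (dW1 c)ᵀ) c a := by
    refine Finset.sum_congr rfl fun a _ => Finset.sum_congr rfl fun c _ => ?_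
    rw [Matrix.mul_apply]
    rfl
  have s3 : ∑ a, ∑ i, ∑ j, p a i j * dW2 i a j = ∑ a, ∑ i, (p a * (dW2 i)ᵀ) i a := by
    refine Finset.sum_congr rfl fun a _ => Finset.sum_congr rfl fun c _ => ?_
    rw [Matrix.mul_apply]
    rfl
  have s4 : ∀ a c, dS a * dM c - p a * (dW1 c)ᵀ
      = t * Ω a * (t * X c * t) + t * Ψ a * (t * Ω c * (t * N * t)) := by
    intro a c
    rw [hdS, hdW1, hpp, transpose_add, transpose_mul, transpose_mul, transpose_transpose,
      transpose_transpose, hdMT, hdMX]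
    simp only [transpose_mul, ht, hN, Matrix.mul_add, Matrix.add_mul, Matrix.neg_mul,
      Matrix.mul_assoc]
    abel
  have s5 : ∀ a i, p a * (dW2 i)ᵀ
      = -(t * Ψ a * (t * (N * (t * X i * t) + ν i * (t * N * t)))) := by
    intro a i
    rw [hdW2, hpp, transpose_add, transpose_mul, transpose_mul, hdMT, hdMX, hν]
    simp only [transpose_mul, ht, hN, Matrix.mul_add, Matrix.neg_mul,
      Matrix.mul_assoc]
    abel
  have e1 : 2 * (∑ a, ∑ b, ∑ c, dS a c b * dM c a b) - 2 * (∑ a, ∑ c, ∑ d, p a c d * dW1 c a d)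
      + ∑ a, ∑ i, ∑ j, p a i j * dW2 i a j
      = 2 * (∑ c, ∑ d, t c d * (Ω d * (t * X c * t)).trace)
        + 2 * (∑ c, ∑ d, t c d * (Ψ d * (t * Ω c * (t * N * t))).trace)
        - ∑ c, ∑ d, t c d * (Ψ d * (t * (N * (t * X c * t) + ν c * (t * N * t)))).trace := by
    rw [← sum_L1 t Ω (fun c => t * X c * t) hΩs,
      ← sum_L1 t Ψ (fun c => t * Ω c * (t * N * t)) hΨs,
      ← sum_L1 t Ψ (fun c => t * (N * (t * X c * t) + ν c * (t * N * t))) hΨs, s1, s2, s3]
    have k1 : ∑ a, ∑ c, (dS a * dM c) c a - ∑ a, ∑ c, (p a * (dW1 c)ᵀ) c a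
        = ∑ a, ∑ c, (t * Ω a * (t * X c * t)) c a
          + ∑ a, ∑ c, (t * Ψ a * (t * Ω c * (t * N * t))) c a := by
      simp only [← Finset.sum_sub_distrib, ← Finset.sum_add_distrib]
      refine Finset.sum_congr rfl fun a _ => Finset.sum_congr rfl fun c _ => ?_
      have := congrFun (congrFun (s4 a c) c) a
      simpa only [Matrix.sub_apply, Matrix.add_apply] using this
    have k2 : ∑ a, ∑ i, (p a * (dW2 i)ᵀ) i a
        = - ∑ a, ∑ c, (t * Ψ a * (t * (N * (t * X c * t) + ν c * (t * N * t)))) c a := by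
      simp only [← Finset.sum_neg_distrib]
      refine Finset.sum_congr rfl fun a _ => Finset.sum_congr rfl fun c _ => ?_
      rw [s5 a c]
      rfl
    rw [k2]
    linarith
  -- step 2 : in terms of `q`
  have f1 : ∑ c, ∑ d, t c d * (Ω d * (t * X c * t)).trace = q t (fun c => (Ω c)ᵀ) X := by
    unfold q
    refine Finset.sum_congr rfl fun c _ => Finset.sum_congr rfl fun d _ => ?_
    simp only [transpose_transpose, Matrix.mul_assoc]
  have f2 : ∑ c, ∑ d, t c d * (Ψ d * (t * Ω c * (t * N * t))).trace = q t P Ω := by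
    unfold q
    refine Finset.sum_congr rfl fun c _ => Finset.sum_congr rfl fun d _ => ?_
    rw [hPT]
    congr 1
    rw [show Ψ d * (t * Ω c * (t * N * t)) = (Ψ d * t * Ω c * t) * (N * t) by
      simp only [Matrix.mul_assoc], trace_mul_comm]
    simp only [Matrix.mul_assoc]
  have f3 : ∑ c, ∑ d, t c d * (Ψ d * (t * (N * (t * X c * t) + ν c * (t * N * t)))).trace
      = q t (fun c => (P c)ᵀ) X + q t P ν := by
    unfold q
    rw [← Finset.sum_add_distrib]
    refine Finset.sum_congr rfl fun c _ => ?_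
    rw [← Finset.sum_add_distrib]
    refine Finset.sum_congr rfl fun d _ => ?_
    rw [← mul_add]
    congr 1
    rw [hPT, transpose_transpose, Matrix.mul_add, Matrix.mul_add, trace_add]
    congr 1
    · simp only [hPd, Matrix.mul_assoc]
    · rw [show Ψ d * (t * (ν c * (t * N * t))) = (Ψ d * t * ν c * t) * (N * t) by
        simp only [Matrix.mul_assoc], trace_mul_comm]
      simp only [Matrix.mul_assoc]
  obtain ⟨v1, v2, v3, v4⟩ := q_vals ht ν P hν hP Λ hΛ
  have hXf : (fun c => (X c)ᵀ) = X := funext hXT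
  have g1 : q t (fun c => (Ω c)ᵀ) X = q t ν X := by
    have h1 : q t (fun c => (Ω c)ᵀ) X = q t Ω X := by
      have := q_tr ht Ω X
      rwa [hXf] at this
    have h2 : q t (fun c => (Λ c)ᵀ) X = q t Λ X := by
      have := q_tr ht Λ X
      rwa [hXf] at this
    rw [h1, hΩf, q_sub_left, q_add_left, h2]
    ring
  have g2 : q t ν X = q t ν ν - 2 * q t P ν := by
    simp only [hXd]
    rw [q_sub_right, q_sub_right, v3, q_symm ht ν P]
    ring
  have g3 : q t P Ω = 2 * q t P ν - q t P Λ := by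
    rw [hΩf, q_sub_right, q_add_right, v1]
    ring
  have g4 : q t (fun c => (P c)ᵀ) X = q t P ν - q t P (fun c => (P c)ᵀ) - q t P P := by
    simp only [hXd]
    rw [q_sub_right, q_sub_right, v2, v4, q_symm ht (fun c => (P c)ᵀ) P]
  rw [e1, f1, f2, f3, g1, g2, g3, g4]
  have hfin := form_nonneg hp ν P hP Λ hΛ
  linarith

end Vale.Agent.P227.M.DU922
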