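import Vale.Agent.P227.M.DU922.Alg
import Vale.Agent.P227.M.ID.Swap414
import Vale.Agent.P227.M.ID.K.Tau572

/-! # P227/M/DU922: matrix-valued Lipschitz calculus and the two integral identities (helper922) -/

open MeasureTheory Filter
open scoped Topology

namespace Vale.Agent.P227.M.DU922

open Sw

variable {n : ℕ}

theorem dpd_mul {i : Fin n} {f g : E n → ℝ} {x : E n} (hf : DifferentiableAt ℝ f x)
    (hg : DifferentiableAt ℝ g x) :
    pd i (fun y => f y * g y) x = pd i f x * g x + f x * pd i g x :=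
  pd_mul_at hf hg i

theorem dpd_sum {ι : Type*} {s : Finset ι} {i : Fin n} {f : ι → E n → ℝ} {x : E n}
    (hf : ∀ a ∈ s, DifferentiableAt ℝ (f a) x) :
    pd i (fun y => ∑ a ∈ s, f a y) x = ∑ a ∈ s, pd i (f a) x := by
  unfold M.pd
  rw [fderiv_fun_sum hf]
  simp

theorem dpd_coord (i j : Fin n) (x : E n) :
    pd i (fun y : E n => y j) x = if j = i then 1 else 0 := by
  unfold M.pd
  have h : (fun y : E n => y j) = (EuclideanSpace.proj j : E n →L[ℝ] ℝ) := rfl
  rw [h, ContinuousLinearMap.fderiv]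
  simp [ei]

theorem LL_sum {ι : Type*} (s : Finset ι) {f : ι → E n → ℝ} (hf : ∀ i, LL (f i)) :
    LL (fun x => ∑ i ∈ s, f i x) := by
  classical
  induction s using Finset.induction_on with
  | empty => simpa using LL.const (n := n) 0
  | insert i s hi ih => simpa [Finset.sum_insert hi] using (hf i).add ih

theorem LB_sum {ι : Type*} (s : Finset ι) {f : ι → E n → ℝ} (hf : ∀ i, LB (f i)) :
    LB (fun x => ∑ i ∈ s, f i x) := by
  classical
  induction s using Finset.induction_on with
  | empty => simpa using LB.of_cont (n := n) (f := fun _ => (0 : ℝ)) continuous_const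
  | insert i s hi ih => simpa [Finset.sum_insert hi] using (hf i).add ih

theorem BS_sum {ι : Type*} (s : Finset ι) {f : ι → E n → ℝ} (hf : ∀ i, BS (f i)) :
    BS (fun x => ∑ i ∈ s, f i x) := by
  classical
  induction s using Finset.induction_on with
  | empty => exact ⟨0, fun x _ => by simp⟩
  | insert i s hi ih => simpa [Finset.sum_insert hi] using (hf i).add ih

/-- locally bounded, measurable, supported in a ball -/
def Gd (f : E n → ℝ) : Prop := LB f ∧ BS f

theorem Gd.add {f g : E n → ℝ} (hf : Gd f) (hg : Gd g) : Gd (fun x => f x + g x) :=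
  ⟨hf.1.add hg.1, hf.2.add hg.2⟩

theorem Gd.sub {f g : E n → ℝ} (hf : Gd f) (hg : Gd g) : Gd (fun x => f x - g x) :=
  ⟨hf.1.sub hg.1, hf.2.sub hg.2⟩

theorem Gd.mul_left {f g : E n → ℝ} (hf : Gd f) (hg : LB g) : Gd (fun x => g x * f x) :=
  ⟨hg.mul hf.1, hf.2.mul_left⟩

theorem Gd.mul_right {f g : E n → ℝ} (hf : Gd f) (hg : LB g) : Gd (fun x => f x * g x) :=
  ⟨hf.1.mul hg, hf.2.mul_right⟩

theorem Gd.sum {ι : Type*} (s : Finset ι) {f : ι → E n → ℝ} (hf : ∀ i, Gd (f i)) :
    Gd (fun x => ∑ i ∈ s, f i x) :=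
  ⟨LB_sum s fun i => (hf i).1, BS_sum s fun i => (hf i).2⟩

/-- unnormalized expectation -/
noncomputable def J (V f : E n → ℝ) : ℝ := ∫ x, f x * Real.exp (-V x)

variable {V : E n → ℝ}

theorem Gd.int (hV : ContDiff ℝ 2 V) {f : E n → ℝ} (hf : Gd f) :
    Integrable (fun x => f x * Real.exp (-V x)) :=
  LB.integrable (hf.1.mul (LL.exp_neg hV).lb) hf.2.mul_right

theorem J_add (hV : ContDiff ℝ 2 V) {f g : E n → ℝ} (hf : Gd f) (hg : Gd g) :
    J V (fun x => f x + g x) = J V f + J V g := by
  unfold J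
  rw [← integral_add (hf.int hV) (hg.int hV)]
  congr 1
  funext x
  ring

theorem J_sub (hV : ContDiff ℝ 2 V) {f g : E n → ℝ} (hf : Gd f) (hg : Gd g) :
    J V (fun x => f x - g x) = J V f - J V g := by
  unfold J
  rw [← integral_sub (hf.int hV) (hg.int hV)]
  congr 1
  funext x
  ring

theorem J_mul (a : ℝ) (f : E n → ℝ) : J V (fun x => a * f x) = a * J V f := by
  unfold J
  rw [← integral_const_mul]
  congr 1
  funext x
  ring

theorem J_sum (hV : ContDiff ℝ 2 V) {ι : Type*} (s : Finset ι) {f : ι → E n → ℝ}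
    (hf : ∀ i, Gd (f i)) : J V (fun x => ∑ i ∈ s, f i x) = ∑ i ∈ s, J V (f i) := by
  unfold J
  rw [← integral_finsetSum s fun i _ => (hf i).int hV]
  congr 1
  funext x
  rw [Finset.sum_mul]

theorem J_congr {f g : E n → ℝ} (h : ∀ᵐ x, f x = g x) : J V f = J V g := by
  unfold J
  refine integral_congr_ae ?_
  filter_upwards [h] with x hx
  rw [hx]

theorem J_nonneg {f : E n → ℝ} (h : ∀ᵐ x, 0 ≤ f x) : 0 ≤ J V f := by
  unfold J
  refine integral_nonneg_of_ae ?_
  filter_upwards [h] with x hx
  exact mul_nonneg hx (Real.exp_pos _).le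

/-! ### matrix-valued functions -/

/-- entrywise locally Lipschitz -/
def ML (A : E n → Mt n) : Prop := ∀ i j, LL (fun x => A x i j)

/-- entrywise supported in a ball -/
def MS (A : E n → Mt n) : Prop := ∀ i j, BS (fun x => A x i j)

/-- entrywise differentiable at a point -/
def MD (A : E n → Mt n) (x : E n) : Prop := ∀ i j, DifferentiableAt ℝ (fun z => A z i j) x

/-- entrywise partial derivative -/
noncomputable def dm (e : Fin n) (A : E n → Mt n) (x : E n) : Mt n :=
  Matrix.of fun i j => pd e (fun z => A z i j) x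

theorem ML.mul {A B : E n → Mt n} (hA : ML A) (hB : ML B) : ML (fun x => A x * B x) := by
  intro i j
  simp only [Matrix.mul_apply]
  exact LL_sum _ fun k => (hA i k).mul (hB k j)

theorem MS.mul_left {A B : E n → Mt n} (hB : MS B) : MS (fun x => A x * B x) := by
  intro i j
  simp only [Matrix.mul_apply]
  exact BS_sum _ fun k => (hB k j).mul_left

theorem MS.mul_right {A B : E n → Mt n} (hA : MS A) : MS (fun x => A x * B x) := by
  intro i j
  simp only [Matrix.mul_apply]
  exact BS_sum _ fun k => (hA i k).mul_right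

theorem ML.tr {A : E n → Mt n} (hA : ML A) : ML (fun x => (A x).transpose) := fun i j => hA j i

theorem MD.mul {A B : E n → Mt n} {x : E n} (hA : MD A x) (hB : MD B x) :
    MD (fun z => A z * B z) x := by
  intro i j
  simp only [Matrix.mul_apply]
  exact DifferentiableAt.fun_sum fun k _ => (hA i k).fun_mul (hB k j)

theorem MD.tr {A : E n → Mt n} {x : E n} (hA : MD A x) : MD (fun z => (A z).transpose) x :=
  fun i j => hA j i

theorem dm_mul {A B : E n → Mt n} {x : E n} (hA : MD A x) (hB : MD B x) (e : Fin n) :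
    dm e (fun z => A z * B z) x = dm e A x * B x + A x * dm e B x := by
  ext i j
  show pd e (fun z => (A z * B z) i j) x = _
  simp only [Matrix.mul_apply, Matrix.add_apply, dm, Matrix.of_apply]
  rw [dpd_sum fun k _ => (hA i k).fun_mul (hB k j), ← Finset.sum_add_distrib]
  exact Finset.sum_congr rfl fun k _ => dpd_mul (hA i k) (hB k j)

theorem dm_tr {A : E n → Mt n} {x : E n} (e : Fin n) :
    dm e (fun z => (A z).transpose) x = (dm e A x).transpose := rfl

theorem ML.dm_lb {A : E n → Mt n} (hA : ML A) (e i j : Fin n) : LB (fun x => dm e A x i j) :=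
  (hA i j).pd_lb e

theorem MS.dm {A : E n → Mt n} (hA : MS A) (e i j : Fin n) : BS (fun x => dm e A x i j) :=
  (hA i j).pd e

end Vale.Agent.P227.M.DU922
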