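import Vale.Agent.P227.M.DU922.Key
import Vale.Agent.P227.M.DU591.Loc
import Vale.Agent.P227.M.LIN.Apri
import Vale.Agent.P227.M.LIN.Boch

/-! # P227/M/DU922: `StmtFB`, `E |F_M|² ≤ K E |Lω|²` (helper922) -/

open MeasureTheory Filter
open scoped Topology

namespace Vale.Agent.P227.M.DU922

open Sw LIN LIN.Apri

variable {n : ℕ} {ψ V : E n → ℝ} {c C M : ℝ} {w : Fin n → E n → ℝ}

theorem boch_G1 (hV : Nice V c C) (h : MM ψ V c C M) {a0 : ℝ} (ha0 : 0 < a0)
    (hT : ∀ x v, a0 * ‖v‖ ^ 2 ≤ qf (tau ψ x) v) {F : E n → ℝ} (hF : Test F) :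
    a0 * Ex V (G1 F) ≤ Ex V (fun x => (Lop ψ F x) ^ 2) := by
  rw [stmtBoch n ψ V c C M hV h F hF]
  have h1 : 0 ≤ Ex V (fun x => (tau ψ x * hess F x * tau ψ x * hess F x).trace) := by
    refine Ex_nonneg V fun x => ?_
    have h2 : a0 ^ 2 * ∑ a, ∑ b, hess F x a b ^ 2 ≤
        (tau ψ x * hess F x * tau ψ x * hess F x).trace := by
      refine X671.trace_lower ?_ (hess_isSymm hF.C2 x) ha0.le fun p => ?_
      · exact h.tau_transpose x
      · have := hT x (WithLp.toLp 2 p)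
        rw [norm_sq_eq_sum] at this
        exact this
    exact le_trans (mul_nonneg (sq_nonneg _) (Finset.sum_nonneg fun _ _ =>
      Finset.sum_nonneg fun _ _ => sq_nonneg _)) h2
  have h3 : a0 * Ex V (G1 F) ≤ Ex V (fun x => ∑ b, pd b F x * fld ψ F b x) := by
    rw [← Ex_const_mul]
    refine Ex_mono hV.toReg ((gr_G1 hF).const_mul _)
      (Gr.sum _ fun b _ => (hF.gr_pd b).mul (h.gr_fld hF b)) fun x => ?_
    rw [G1_eq_term, ← grad_vec]
    exact hT x _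
  linarith

theorem abs_mul_le {A B : Mt n} {α β : ℝ} (hα : 0 ≤ α) (hA : ∀ i j, |A i j| ≤ α)
    (hB : ∀ i j, |B i j| ≤ β) (i j : Fin n) : |(A * B) i j| ≤ n * (α * β) := by
  rw [Matrix.mul_apply]
  refine (Finset.abs_sum_le_sum_abs _ _).trans ?_
  calc ∑ k, |A i k * B k j| ≤ ∑ _k : Fin n, α * β := Finset.sum_le_sum fun k _ => by
        rw [abs_mul]
        exact mul_le_mul (hA i k) (hB k j) (abs_nonneg _) hα
    _ = n * (α * β) := by simp

/-- bounds for `M` and `∂M` -/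
theorem M_bounds (h : MM ψ V c C M) (hw : ∀ b, Test (w b)) {K : ℝ} (hK0 : 0 ≤ K)
    (hK : ∀ a b d x, |pd a (fun z => tau ψ z b d) x| ≤ K) {x : E n} (hx : Good ψ x) {u : ℝ}
    (hu : 0 ≤ u) (h1 : ∀ a b, |Zm w x a b| ≤ u) (h2 : ∀ e a b, |dm e (Zm w) x a b| ≤ u) :
    (∀ a b, |DU.Mf ψ w x a b| ≤ (n * n * (c⁻¹ * c⁻¹) + 2 * (n * n * (K * c⁻¹))) * u) ∧
    ∀ e a b, |dm e (DU.Mf ψ w) x a b| ≤ (n * n * (c⁻¹ * c⁻¹) + 2 * (n * n * (K * c⁻¹))) * u := by
  have hc : 0 ≤ c⁻¹ := inv_nonneg.2 h.c_pos.le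
  have hn : (0 : ℝ) ≤ n := Nat.cast_nonneg n
  have hτ : ∀ i j, |tau ψ x i j| ≤ c⁻¹ := fun i j => h.abs_tau_le x i j
  have hN : ∀ a b, |DU.sD w x a b| ≤ u := by
    intro a b
    rw [sD_apply]
    have k1 := abs_le.1 (h1 a b)
    have k2 := abs_le.1 (h1 b a)
    rw [abs_le]
    constructor <;> linarith
  have hν : ∀ e a b, |dm e (DU.sD w) x a b| ≤ u := by
    intro e a b
    rw [nu_apply hw]
    have k1 := abs_le.1 (h2 e a b)
    have k2 := abs_le.1 (h2 e b a)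
    rw [abs_le]
    constructor <;> linarith
  have hp : ∀ e a b, |dm e (tau ψ) x a b| ≤ K := fun e a b => hK e a b x
  have t1 : ∀ a b, |(tau ψ x * DU.sD w x) a b| ≤ n * (c⁻¹ * u) := abs_mul_le hc hτ hN
  have t2 : ∀ a b, |(tau ψ x * DU.sD w x * tau ψ x) a b| ≤ n * (n * (c⁻¹ * u) * c⁻¹) :=
    abs_mul_le (by positivity) t1 hτ
  constructor
  · intro a b
    refine (t2 a b).trans ?_
    have : 0 ≤ 2 * (n * n * (K * c⁻¹)) * u := by positivity
    nlinarith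
  · intro e a b
    have mτ : MD (tau ψ) x := hx.2
    have mN := md_N hw x
    have e1 : dm e (DU.Mf ψ w) x = (dm e (tau ψ) x * DU.sD w x + tau ψ x * dm e (DU.sD w) x)
        * tau ψ x + tau ψ x * DU.sD w x * dm e (tau ψ) x := by
      show dm e (fun z => tau ψ z * DU.sD w z * tau ψ z) x = _
      rw [dm_mul (mτ.mul mN) mτ, dm_mul mτ mN]
    have s1 : ∀ a b, |(dm e (tau ψ) x * DU.sD w x) a b| ≤ n * (K * u) :=
      abs_mul_le hK0 (hp e) hN
    have s2 : ∀ a b, |(tau ψ x * dm e (DU.sD w) x) a b| ≤ n * (c⁻¹ * u) :=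
      abs_mul_le hc hτ (hν e)
    have s3 : ∀ a b, |(dm e (tau ψ) x * DU.sD w x + tau ψ x * dm e (DU.sD w) x) a b|
        ≤ n * (K * u) + n * (c⁻¹ * u) := fun a b => by
      rw [Matrix.add_apply]
      exact (abs_add_le _ _).trans (add_le_add (s1 a b) (s2 a b))
    have s4 : ∀ a b, |((dm e (tau ψ) x * DU.sD w x + tau ψ x * dm e (DU.sD w) x) * tau ψ x) a b|
        ≤ n * ((n * (K * u) + n * (c⁻¹ * u)) * c⁻¹) := abs_mul_le (by positivity) s3 hτ
    have s5 : ∀ a b, |(tau ψ x * DU.sD w x * dm e (tau ψ) x) a b| ≤ n * (n * (c⁻¹ * u) * K) :=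
      abs_mul_le (by positivity) t1 (hp e)
    rw [e1, Matrix.add_apply]
    refine (abs_add_le _ _).trans ((add_le_add (s4 a b) (s5 a b)).trans (le_of_eq ?_))
    ring

/-- the gauge -/
noncomputable def gg (w : Fin n → E n → ℝ) (x : E n) : ℝ := ∑ b, (G1 (w b) x + G2 (w b) x)

theorem gg_nonneg (w : Fin n → E n → ℝ) (x : E n) : 0 ≤ gg w x :=
  Finset.sum_nonneg fun b _ => add_nonneg (G1_nonneg _ _) (G2_nonneg _ _)

theorem le_gg (w : Fin n → E n → ℝ) (x : E n) (b : Fin n) : G1 (w b) x + G2 (w b) x ≤ gg w x :=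
  Finset.single_le_sum (f := fun b => G1 (w b) x + G2 (w b) x)
    (fun b _ => add_nonneg (G1_nonneg _ _) (G2_nonneg _ _)) (Finset.mem_univ b)

theorem Z_le (w : Fin n → E n → ℝ) (x : E n) (a b : Fin n) :
    |Zm w x a b| ≤ Real.sqrt (gg w x) := by
  apply Real.abs_le_sqrt
  have h1 : (pd a (w b) x) ^ 2 ≤ G1 (w b) x :=
    Finset.single_le_sum (f := fun a => (pd a (w b) x) ^ 2) (fun _ _ => sq_nonneg _)
      (Finset.mem_univ a)
  have h2 := le_gg w x b
  have h3 := G2_nonneg (w b) x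
  show (pd a (w b) x) ^ 2 ≤ _
  linarith

theorem dZ_le (w : Fin n → E n → ℝ) (x : E n) (e a b : Fin n) :
    |dm e (Zm w) x a b| ≤ Real.sqrt (gg w x) := by
  apply Real.abs_le_sqrt
  have h0 : (hess (w b) x e a) ^ 2 ≤ ∑ d, (hess (w b) x e d) ^ 2 :=
    Finset.single_le_sum (f := fun d => (hess (w b) x e d) ^ 2) (fun _ _ => sq_nonneg _)
      (Finset.mem_univ a)
  have h1 : ∑ d, (hess (w b) x e d) ^ 2 ≤ G2 (w b) x :=
    Finset.single_le_sum (f := fun e => ∑ d, (hess (w b) x e d) ^ 2)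
      (fun _ _ => Finset.sum_nonneg fun _ _ => sq_nonneg _) (Finset.mem_univ e)
  have h2 := le_gg w x b
  have h3 := G1_nonneg (w b) x
  show (hess (w b) x e a) ^ 2 ≤ _
  linarith

theorem gd_gg (hw : ∀ b, Test (w b)) : Gd (gg w) := by
  refine Gd.sum _ fun b => Gd.add ?_ ?_
  · refine Gd.sum _ fun a => ?_
    have := test_pd (hw b) a
    refine ⟨LB.of_cont ((test_ll this).cont.pow 2), ?_⟩
    have h2 : (fun x => (pd a (w b) x) ^ 2) = fun x => pd a (w b) x * pd a (w b) x :=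
      funext fun x => sq _
    rw [h2]
    exact (test_bs this).mul_left
  · refine Gd.sum _ fun a => Gd.sum _ fun d => ?_
    have := test_pd (test_pd (hw b) d) a
    refine ⟨LB.of_cont ((test_ll this).cont.pow 2), ?_⟩
    have h2 : (fun x => (hess (w b) x a d) ^ 2)
        = fun x => pd a (pd d (w b)) x * pd a (pd d (w b)) x :=
      funext fun x => sq _
    rw [h2]
    exact (test_bs this).mul_left

theorem J_mono (hV : ContDiff ℝ 2 V) {f g : E n → ℝ} (hf : Gd f) (hg : Gd g)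
    (hfg : ∀ᵐ x, f x ≤ g x) : J V f ≤ J V g := by
  unfold J
  refine integral_mono_ae (hf.int hV) (hg.int hV) ?_
  filter_upwards [hfg] with x hx
  exact mul_le_mul_of_nonneg_right hx (Real.exp_pos _).le

theorem fb_J (hV : Nice V c C) (h : MM ψ V c C M) : ∃ K : ℝ, 0 ≤ K ∧
    ∀ w : Fin n → E n → ℝ, (∀ b, Test (w b)) →
      J V (fun x => ∑ b, DU.FM ψ V w b x ^ 2) ≤ K * J V (gg w) := by
  have hV2 : ContDiff ℝ 2 V := hV.smooth.of_le (by norm_cast)
  obtain ⟨K, hK0, hK⟩ := exists_ktau h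
  obtain ⟨B, hB⟩ := hV.toReg.abs_hess
  set κ : ℝ := n * n * (c⁻¹ * c⁻¹) + 2 * (n * n * (K * c⁻¹)) with hκ
  have hc : 0 ≤ c⁻¹ := inv_nonneg.2 h.c_pos.le
  have hn : (0 : ℝ) ≤ n := Nat.cast_nonneg n
  have hκ0 : 0 ≤ κ := by positivity
  set K0 : ℝ := (1 + |B|) * κ ^ 2 with hK0d
  have hK00 : 0 ≤ K0 := by positivity
  refine ⟨n * (n * (n * K0)), by positivity, fun w hw => ?_⟩
  have lM := ml_M h hw
  have sM := ms_M (ψ := ψ) hw
  have gg0 := gd_gg hw
  have g1 : ∀ a b d, Gd (fun x => Ds V a (fun z => DU.Mf ψ w z a b) x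
      * Ds V d (fun z => DU.Mf ψ w z d b) x) := fun a b d =>
    ⟨(lb_Ds hV2 (lM a b) a).mul (lb_Ds hV2 (lM d b) d),
      (gd_Ds hV2 (lM a b) (sM a b) a).2.mul_right⟩
  have g2 : ∀ a b d, Gd (fun x => pd d (fun z => DU.Mf ψ w z a b) x
      * pd a (fun z => DU.Mf ψ w z d b) x
      + hess V x d a * DU.Mf ψ w x a b * DU.Mf ψ w x d b) := fun a b d =>
    ⟨(((lM a b).pd_lb d).mul ((lM d b).pd_lb a)).add
      (((lb_hess hV2 d a).mul (lM a b).lb).mul (lM d b).lb),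
      ((sM d b).pd a).mul_left.add (sM d b).mul_left⟩
  have e1 : J V (fun x => ∑ b, DU.FM ψ V w b x ^ 2)
      = ∑ b, ∑ a, ∑ d, J V (fun x => Ds V a (fun z => DU.Mf ψ w z a b) x
      * Ds V d (fun z => DU.Mf ψ w z d b) x) := by
    have e2 : (fun x => ∑ b, DU.FM ψ V w b x ^ 2)
        = fun x => ∑ b, ∑ a, ∑ d, Ds V a (fun z => DU.Mf ψ w z a b) x
      * Ds V d (fun z => DU.Mf ψ w z d b) x := by
      funext x
      refine Finset.sum_congr rfl fun b _ => ?_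
      rw [sq]
      show (∑ a, Ds V a (fun z => DU.Mf ψ w z a b) x)
        * (∑ d, Ds V d (fun z => DU.Mf ψ w z d b) x) = _
      exact Finset.sum_mul_sum _ _ _ _
    rw [e2, J_sum hV2 _ fun b => Gd.sum _ fun a => Gd.sum _ fun d => g1 a b d]
    refine Finset.sum_congr rfl fun b _ => ?_
    rw [J_sum hV2 _ fun a => Gd.sum _ fun d => g1 a b d]
    refine Finset.sum_congr rfl fun a _ => ?_
    rw [J_sum hV2 _ fun d => g1 a b d]
  have e3 : ∀ b a d, J V (fun x => Ds V a (fun z => DU.Mf ψ w z a b) x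
      * Ds V d (fun z => DU.Mf ψ w z d b) x) ≤ K0 * J V (gg w) := by
    intro b a d
    rw [J_swap hV2 (lM a b) (lM d b) (Or.inl (sM a b)) a d, ← J_mul]
    refine J_mono hV2 (g2 a b d) (gg0.mul_left (LL.const (n := n) K0).lb) ?_
    filter_upwards [rad_good h] with x hx
    obtain ⟨m1, m2⟩ := M_bounds h hw hK0 hK hx (Real.sqrt_nonneg (gg w x)) (Z_le w x) (dZ_le w x)
    rw [← hκ] at m1 m2
    have hs : Real.sqrt (gg w x) * Real.sqrt (gg w x) = gg w x :=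
      Real.mul_self_sqrt (gg_nonneg w x)
    have k1 : |pd d (fun z => DU.Mf ψ w z a b) x * pd a (fun z => DU.Mf ψ w z d b) x|
        ≤ (κ * Real.sqrt (gg w x)) * (κ * Real.sqrt (gg w x)) := by
      rw [abs_mul]
      exact mul_le_mul (m2 d a b) (m2 a d b) (abs_nonneg _) (by positivity)
    have k2 : |hess V x d a * DU.Mf ψ w x a b * DU.Mf ψ w x d b|
        ≤ |B| * (κ * Real.sqrt (gg w x)) * (κ * Real.sqrt (gg w x)) := by
      rw [abs_mul, abs_mul]
      refine mul_le_mul (mul_le_mul ((hB x d a).trans (le_abs_self B)) (m1 a b) (abs_nonneg _)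
        (abs_nonneg _)) (m1 d b) (abs_nonneg _) (by positivity)
    have k3 := (abs_le.1 k1).2
    have k4 := (abs_le.1 k2).2
    have k5 : K0 * gg w x = (κ * Real.sqrt (gg w x)) * (κ * Real.sqrt (gg w x))
        + |B| * (κ * Real.sqrt (gg w x)) * (κ * Real.sqrt (gg w x)) := by
      calc K0 * gg w x = K0 * (Real.sqrt (gg w x) * Real.sqrt (gg w x)) := by rw [hs]
        _ = _ := by
          rw [hK0d]
          ring
    linarith
  rw [e1]
  refine (Finset.sum_le_sum fun b _ => Finset.sum_le_sum fun a _ => Finset.sum_le_sum fun d _ =>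
    e3 b a d).trans (le_of_eq ?_)
  simp only [Finset.sum_const, Finset.card_univ, Fintype.card_fin, nsmul_eq_mul]
  ring

/-- **`StmtFB`** -/
theorem stmtFB : DU.StmtFB := by
  intro n ψ V c C M hV h
  obtain ⟨a0, ha0, ha1, hT⟩ := exists_a0 h
  obtain ⟨K, hK0, hK⟩ := fb_J (n := n) hV h
  refine ⟨K * (a0⁻¹ + (a0 ^ 2)⁻¹), by positivity, fun w hw => ?_⟩
  have hZ := hV.toReg.Z_pos
  have h1 : Ex V (fun x => ∑ b, DU.FM ψ V w b x ^ 2) ≤ K * Ex V (gg w) := by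
    rw [Ex_eq, Ex_eq, ← mul_div_assoc]
    exact div_le_div_of_nonneg_right (hK w hw) hZ.le
  have h2 : Ex V (gg w) ≤ (a0⁻¹ + (a0 ^ 2)⁻¹) * Ex V (fun x => ∑ b, Lop ψ (w b) x ^ 2) := by
    unfold gg
    rw [Ex_sum hV.toReg _ fun b _ => (gr_G1 (hw b)).add (gr_G2 (hw b)),
      Ex_sum hV.toReg _ fun b _ => (h.gr_Lop (hw b)).pow 2, Finset.mul_sum]
    refine Finset.sum_le_sum fun b _ => ?_
    rw [Ex_add hV.toReg (gr_G1 (hw b)) (gr_G2 (hw b)), add_mul]
    refine add_le_add ?_ ?_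
    · have := boch_G1 hV h ha0 hT (hw b)
      rw [inv_mul_eq_div, le_div_iff₀ ha0, mul_comm]
      exact this
    · have := boch_lower stmtBoch hV h ha0 hT (hw b)
      rw [inv_mul_eq_div, le_div_iff₀ (by positivity), mul_comm]
      exact this
  calc Ex V (fun x => ∑ b, DU.FM ψ V w b x ^ 2) ≤ K * Ex V (gg w) := h1
    _ ≤ K * ((a0⁻¹ + (a0 ^ 2)⁻¹) * Ex V (fun x => ∑ b, Lop ψ (w b) x ^ 2)) :=
      mul_le_mul_of_nonneg_left h2 hK0
    _ = _ := by ring

end Vale.Agent.P227.M.DU922
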