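import Vale.Agent.P227.M.DU922.An
import Vale.Agent.P227.M.DU591.Stmt

/-! # P227/M/DU922: the two integral identities (helper922) -/

open MeasureTheory Filter
open scoped Topology

namespace Vale.Agent.P227.M.DU922

open Sw

variable {n : ℕ} {ψ V : E n → ℝ} {c C M : ℝ}

theorem ml_tau (h : MM ψ V c C M) : ML (tau ψ) := fun i j =>
  LL.mk' fun _ => ⟨_, fun x _ y _ => rad_tau_lip h x y i j⟩

/-- `D*_a f = V_a f - ∂_a f` -/
noncomputable def Ds (V : E n → ℝ) (a : Fin n) (f : E n → ℝ) (x : E n) : ℝ :=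
  pd a V x * f x - pd a f x

theorem lb_pdV (hV : ContDiff ℝ 2 V) (a : Fin n) : LB (pd a V) :=
  LB.of_cont (pd_c1 hV a).continuous

theorem lb_hess (hV : ContDiff ℝ 2 V) (a b : Fin n) : LB (fun x => hess V x a b) :=
  LB.of_cont (rad_hess_cont hV a b)

theorem lb_Ds (hV : ContDiff ℝ 2 V) {f : E n → ℝ} (hf : LL f) (a : Fin n) : LB (Ds V a f) :=
  ((lb_pdV hV a).mul hf.lb).sub (hf.pd_lb a)

theorem gd_Ds (hV : ContDiff ℝ 2 V) {f : E n → ℝ} (hf : LL f) (hs : BS f) (a : Fin n) :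
    Gd (Ds V a f) :=
  ⟨lb_Ds hV hf a, (hs.mul_left).sub (hs.pd a)⟩

theorem J_swap (hV : ContDiff ℝ 2 V) {P Q : E n → ℝ} (hP : LL P) (hQ : LL Q)
    (hs : BS P ∨ BS Q) (a c : Fin n) :
    J V (fun x => Ds V a P x * Ds V c Q x)
      = J V (fun x => pd c P x * pd a Q x + hess V x c a * P x * Q x) :=
  swap hV hP hQ hs a c

theorem J_ibp (hV : ContDiff ℝ 2 V) {P Q : E n → ℝ} (hP : LL P) (hQ : LL Q)
    (hs : BS P ∨ BS Q) (a : Fin n) :
    J V (fun x => Ds V a P x * Q x) = J V (fun x => P x * pd a Q x) :=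
  ibpV hV hP hQ hs a

/-- divergence of `τ` -/
theorem ae_div (h : MM ψ V c C M) : ∀ᵐ x : E n, ∀ j,
    x j = ∑ i, Ds V i (fun z => tau ψ z i j) x := by
  filter_upwards [rad_good h] with x hx j
  have h1 := rad_div h hx j
  have h2 : ∑ i, Ds V i (fun z => tau ψ z i j) x
      = - ∑ b, (pd b (fun y => tau ψ y b j) x - tau ψ x b j * pd b V x) := by
    rw [← Finset.sum_neg_distrib]
    refine Finset.sum_congr rfl fun i _ => ?_
    unfold Ds
    ring
  rw [h2, h1]
  ring

theorem ll_coord (j : Fin n) : LL (fun x : E n => x j) :=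
  LL.of_c1 (EuclideanSpace.proj (𝕜 := ℝ) j : E n →L[ℝ] ℝ).contDiff

/-- **(F1w)** -/
theorem J_trace (hV : ContDiff ℝ 2 V) (h : MM ψ V c C M) {W : E n → Mt n} (hW : ML W)
    (hWs : MS W) :
    J V (fun x => ∑ a, W x a a)
      = J V (fun x => ∑ a, ∑ i, ∑ j, dm a (tau ψ) x i j * dm i W x a j)
        + J V (fun x => ∑ a, ∑ i, ∑ j, hess V x a i * tau ψ x i j * W x a j) := by
  classical
  have hτ := ml_tau h
  have gW : ∀ a j, Gd (fun x => W x a j) := fun a j => ⟨(hW a j).lb, hWs a j⟩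
  have g1 : ∀ a i j, Gd (fun x => dm a (tau ψ) x i j * dm i W x a j) := fun a i j =>
    ⟨(hτ.dm_lb a i j).mul (hW.dm_lb i a j), (hWs.dm i a j).mul_left⟩
  have g2 : ∀ a i j, Gd (fun x => hess V x a i * tau ψ x i j * W x a j) := fun a i j =>
    ⟨((lb_hess hV a i).mul (hτ i j).lb).mul (hW a j).lb, (hWs a j).mul_left⟩
  have g3 : ∀ a i j, Gd (fun x => Ds V i (fun z => tau ψ z i j) x * Ds V a (fun z => W z a j) x) :=
    fun a i j => ⟨(lb_Ds hV (hτ i j) i).mul (lb_Ds hV (hW a j) a),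
      (gd_Ds hV (hW a j) (hWs a j) a).2.mul_left⟩
  -- first step
  have s1 : ∀ a j, J V (fun x => W x a j * pd a (fun y : E n => y j) x)
      = ∑ i, (J V (fun x => dm a (tau ψ) x i j * dm i W x a j)
        + J V (fun x => hess V x a i * tau ψ x i j * W x a j)) := by
    intro a j
    rw [← J_ibp hV (hW a j) (ll_coord j) (Or.inl (hWs a j)) a]
    have e1 : J V (fun x => Ds V a (fun z => W z a j) x * x j)
        = J V (fun x => ∑ i, Ds V i (fun z => tau ψ z i j) x * Ds V a (fun z => W z a j) x) := by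
      apply J_congr
      filter_upwards [ae_div h] with x hx
      rw [← Finset.sum_mul, ← hx j]
      ring
    rw [e1, J_sum hV _ fun i => g3 a i j]
    refine Finset.sum_congr rfl fun i _ => ?_
    rw [J_swap hV (hτ i j) (hW a j) (Or.inr (hWs a j)) i a, ← J_add hV (g1 a i j) (g2 a i j)]
    rfl
  have s2 : J V (fun x => ∑ a, W x a a)
      = ∑ a, ∑ j, J V (fun x => W x a j * pd a (fun y : E n => y j) x) := by
    rw [J_sum hV _ fun a => gW a a]
    refine Finset.sum_congr rfl fun a _ => ?_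
    rw [Finset.sum_eq_single a]
    · congr 1
      funext x
      rw [dpd_coord]
      simp
    · intro j _ hj
      have : (fun x => W x a j * pd a (fun y : E n => y j) x) = fun _ => 0 := by
        funext x
        rw [dpd_coord, if_neg hj, mul_zero]
      rw [this]
      unfold J
      simp
    · intro hne
      exact absurd (Finset.mem_univ a) hne
  rw [s2, J_sum hV _ fun a => Gd.sum _ fun i => Gd.sum _ fun j => g1 a i j,
    J_sum hV _ fun a => Gd.sum _ fun i => Gd.sum _ fun j => g2 a i j, ← Finset.sum_add_distrib]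
  refine Finset.sum_congr rfl fun a _ => ?_
  rw [J_sum hV _ fun i => Gd.sum _ fun j => g1 a i j,
    J_sum hV _ fun i => Gd.sum _ fun j => g2 a i j, ← Finset.sum_add_distrib,
    Finset.sum_congr rfl fun j _ => s1 a j, Finset.sum_comm]
  refine Finset.sum_congr rfl fun i _ => ?_
  rw [J_sum hV _ fun j => g1 a i j, J_sum hV _ fun j => g2 a i j, ← Finset.sum_add_distrib]

/-! ### the matrices -/

/-- `Z = Dω`, `Z d b = ∂_d ω_b` -/
noncomputable def Zm (w : Fin n → E n → ℝ) (x : E n) : Mt n := Matrix.of fun d b => pd d (w b) x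

/-- `S = τ Z` -/
noncomputable def Sm (ψ : E n → ℝ) (w : Fin n → E n → ℝ) (x : E n) : Mt n := tau ψ x * Zm w x

theorem test_pd {f : E n → ℝ} (hf : Test f) (i : Fin n) : Test (pd i f) := by
  refine ⟨?_, hf.2.fderiv_apply (𝕜 := ℝ) (ei i)⟩
  exact (hf.1.fderiv_right (m := (⊤ : ℕ∞)) (by simp)).clm_apply contDiff_const

theorem test_ll {f : E n → ℝ} (hf : Test f) : LL f :=
  LL.of_c1 (hf.1.of_le (by exact_mod_cast le_top))

theorem test_bs {f : E n → ℝ} (hf : Test f) : BS f := BS.of_hcs hf.2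

theorem test_diff {f : E n → ℝ} (hf : Test f) (x : E n) : DifferentiableAt ℝ f x :=
  (hf.1.differentiable (by simp)) x

variable {w : Fin n → E n → ℝ}

theorem ml_Z (hw : ∀ b, Test (w b)) : ML (Zm w) := fun d b => test_ll (test_pd (hw b) d)

theorem ms_Z (hw : ∀ b, Test (w b)) : MS (Zm w) := fun d b => test_bs (test_pd (hw b) d)

theorem md_Z (hw : ∀ b, Test (w b)) (x : E n) : MD (Zm w) x := fun d b =>
  test_diff (test_pd (hw b) d) x

theorem sD_apply (w : Fin n → E n → ℝ) (x : E n) (a b : Fin n) :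
    DU.sD w x a b = (1 / 2 : ℝ) * (Zm w x a b + Zm w x b a) := by
  show (pd a (w b) x + pd b (w a) x) / 2 = (1 / 2 : ℝ) * (pd a (w b) x + pd b (w a) x)
  ring

theorem ml_N (hw : ∀ b, Test (w b)) : ML (DU.sD w) := by
  intro a b
  have : (fun x => DU.sD w x a b) = fun x => (1 / 2 : ℝ) * (Zm w x a b + Zm w x b a) :=
    funext fun x => sD_apply w x a b
  rw [this]
  exact (LL.const _).mul ((ml_Z hw a b).add (ml_Z hw b a))

theorem ms_N (hw : ∀ b, Test (w b)) : MS (DU.sD w) := by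
  intro a b
  have : (fun x => DU.sD w x a b) = fun x => (1 / 2 : ℝ) * (Zm w x a b + Zm w x b a) :=
    funext fun x => sD_apply w x a b
  rw [this]
  exact ((ms_Z hw a b).add (ms_Z hw b a)).mul_left

theorem md_N (hw : ∀ b, Test (w b)) (x : E n) : MD (DU.sD w) x := by
  intro a b
  have : (fun x => DU.sD w x a b) = fun x => (1 / 2 : ℝ) * (Zm w x a b + Zm w x b a) :=
    funext fun x => sD_apply w x a b
  rw [this]
  exact ((md_Z hw x a b).fun_add (md_Z hw x b a)).const_mul _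

theorem N_symm (w : Fin n → E n → ℝ) (x : E n) : (DU.sD w x).transpose = DU.sD w x := by
  ext a b
  rw [Matrix.transpose_apply, sD_apply, sD_apply, add_comm]

theorem ml_M (h : MM ψ V c C M) (hw : ∀ b, Test (w b)) : ML (DU.Mf ψ w) :=
  ((ml_tau h).mul (ml_N hw)).mul (ml_tau h)

theorem ms_M (hw : ∀ b, Test (w b)) : MS (DU.Mf ψ w) :=
  ((ms_N hw).mul_left (A := tau ψ)).mul_right (B := tau ψ)

theorem ml_S (h : MM ψ V c C M) (hw : ∀ b, Test (w b)) : ML (Sm ψ w) :=
  (ml_tau h).mul (ml_Z hw)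

theorem ms_S (hw : ∀ b, Test (w b)) : MS (Sm ψ w) := (ms_Z hw).mul_left (A := tau ψ)

/-- divergence form of `L` -/
theorem ae_L (h : MM ψ V c C M) (hw : ∀ b, Test (w b)) : ∀ᵐ x : E n, ∀ b,
    -(Lop ψ (w b) x) = ∑ c, Ds V c (fun z => Sm ψ w z c b) x := by
  filter_upwards [rad_good h, ae_div h] with x hx hdv b
  have hS : ∀ c, pd c (fun z => Sm ψ w z c b) x
      = ∑ d, (pd c (fun z => tau ψ z c d) x * pd d (w b) x
        + tau ψ x c d * hess (w b) x c d) := by
    intro c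
    have e : (fun z => Sm ψ w z c b) = fun z => ∑ d, tau ψ z c d * pd d (w b) z := by
      funext z
      exact Matrix.mul_apply
    rw [e, dpd_sum fun d _ => (hx.2 c d).fun_mul (test_diff (test_pd (hw b) d) x)]
    exact Finset.sum_congr rfl fun d _ => dpd_mul (hx.2 c d) (test_diff (test_pd (hw b) d) x)
  have hS0 : ∀ c, Sm ψ w x c b = ∑ d, tau ψ x c d * pd d (w b) x := fun c => Matrix.mul_apply
  have e1 : ∑ c, Ds V c (fun z => Sm ψ w z c b) x
      = ∑ c, (∑ d, Ds V c (fun z => tau ψ z c d) x * pd d (w b) x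
        - ∑ d, tau ψ x c d * hess (w b) x c d) := by
    refine Finset.sum_congr rfl fun c _ => ?_
    show pd c V x * Sm ψ w x c b - pd c (fun z => Sm ψ w z c b) x = _
    rw [hS, hS0, Finset.mul_sum, Finset.sum_add_distrib, ← sub_sub, ← Finset.sum_sub_distrib]
    congr 1
    refine Finset.sum_congr rfl fun d _ => ?_
    unfold Ds
    ring
  rw [e1, Finset.sum_sub_distrib, Finset.sum_comm]
  have e2 : ∑ d, ∑ c, Ds V c (fun z => tau ψ z c d) x * pd d (w b) x
      = ∑ d, x d * pd d (w b) x := by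
    refine Finset.sum_congr rfl fun d _ => ?_
    rw [← Finset.sum_mul, ← hdv d]
  rw [e2]
  unfold Lop
  ring

/-- **(A)** -/
theorem J_LF (hV : ContDiff ℝ 2 V) (h : MM ψ V c C M) (hw : ∀ b, Test (w b)) :
    J V (fun x => ∑ b, -(Lop ψ (w b) x) * DU.FM ψ V w b x)
      = J V (fun x => ∑ a, ∑ b, ∑ c, dm a (Sm ψ w) x c b * dm c (DU.Mf ψ w) x a b)
        + J V (fun x => ∑ a, ∑ b, ∑ c, hess V x a c * Sm ψ w x c b * DU.Mf ψ w x a b) := by
  have lS := ml_S h hw
  have sS := ms_S (ψ := ψ) hw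
  have lM := ml_M h hw
  have sM := ms_M (ψ := ψ) hw
  have g1 : ∀ a b c, Gd (fun x => dm a (Sm ψ w) x c b * dm c (DU.Mf ψ w) x a b) := fun a b c =>
    ⟨(lS.dm_lb a c b).mul (lM.dm_lb c a b), (sS.dm a c b).mul_right⟩
  have g2 : ∀ a b c, Gd (fun x => hess V x a c * Sm ψ w x c b * DU.Mf ψ w x a b) := fun a b c =>
    ⟨((lb_hess hV a c).mul (lS c b).lb).mul (lM a b).lb, (sM a b).mul_left⟩
  have g3 : ∀ a b c, Gd (fun x => Ds V c (fun z => Sm ψ w z c b) x
      * Ds V a (fun z => DU.Mf ψ w z a b) x) := fun a b c =>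
    ⟨(lb_Ds hV (lS c b) c).mul (lb_Ds hV (lM a b) a), (gd_Ds hV (lS c b) (sS c b) c).2.mul_right⟩
  have e1 : J V (fun x => ∑ b, -(Lop ψ (w b) x) * DU.FM ψ V w b x)
      = J V (fun x => ∑ a, ∑ b, ∑ c, Ds V c (fun z => Sm ψ w z c b) x
        * Ds V a (fun z => DU.Mf ψ w z a b) x) := by
    apply J_congr
    filter_upwards [ae_L h hw] with x hx
    rw [Finset.sum_comm]
    refine Finset.sum_congr rfl fun b _ => ?_
    rw [hx b]
    show (∑ c, Ds V c (fun z => Sm ψ w z c b) x) * ∑ a, Ds V a (fun z => DU.Mf ψ w z a b) x = _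
    rw [Finset.mul_sum]
    exact Finset.sum_congr rfl fun a _ => Finset.sum_mul _ _ _
  rw [e1, J_sum hV _ fun a => Gd.sum _ fun b => Gd.sum _ fun c => g3 a b c,
    J_sum hV _ fun a => Gd.sum _ fun b => Gd.sum _ fun c => g1 a b c,
    J_sum hV _ fun a => Gd.sum _ fun b => Gd.sum _ fun c => g2 a b c, ← Finset.sum_add_distrib]
  refine Finset.sum_congr rfl fun a _ => ?_
  rw [J_sum hV _ fun b => Gd.sum _ fun c => g3 a b c,
    J_sum hV _ fun b => Gd.sum _ fun c => g1 a b c,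
    J_sum hV _ fun b => Gd.sum _ fun c => g2 a b c, ← Finset.sum_add_distrib]
  refine Finset.sum_congr rfl fun b _ => ?_
  rw [J_sum hV _ fun c => g3 a b c, J_sum hV _ fun c => g1 a b c, J_sum hV _ fun c => g2 a b c,
    ← Finset.sum_add_distrib]
  refine Finset.sum_congr rfl fun c _ => ?_
  rw [J_swap hV (lS c b) (lM a b) (Or.inl (sS c b)) c a, ← J_add hV (g1 a b c) (g2 a b c)]
  rfl

end Vale.Agent.P227.M.DU922
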