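import Vale.Agent.P227.M.DU922.Id

/-! # P227/M/DU922: `StmtKeyD`, the dual key inequality (helper922) -/

open MeasureTheory Filter
open scoped Topology

namespace Vale.Agent.P227.M.DU922

open Sw

variable {n : ℕ} {ψ V : E n → ℝ} {c C M : ℝ} {w : Fin n → E n → ℝ}

/-- second derivatives of `ω` -/
theorem Om_symm (hw : ∀ b, Test (w b)) (x : E n) (c a b : Fin n) :
    dm c (Zm w) x a b = dm a (Zm w) x c b :=
  rad_hess_symm ((hw b).1.of_le (by norm_cast)) x c a

theorem nu_apply (hw : ∀ b, Test (w b)) (x : E n) (c a b : Fin n) :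
    dm c (DU.sD w) x a b = (1 / 2 : ℝ) * (dm c (Zm w) x a b + dm c (Zm w) x b a) := by
  show pd c (fun z => DU.sD w z a b) x = _
  have e : (fun x => DU.sD w x a b) = fun x => (1 / 2 : ℝ) * (Zm w x a b + Zm w x b a) :=
    funext fun x => sD_apply w x a b
  rw [e]
  unfold M.pd
  rw [fderiv_const_mul ((md_Z hw x a b).fun_add (md_Z hw x b a)), fderiv_fun_add (md_Z hw x a b)
    (md_Z hw x b a)]
  rfl

/-- the pointwise inequality at good points -/
theorem pt_nonneg (h : MM ψ V c C M) (hw : ∀ b, Test (w b)) {x : E n} (hx : Good ψ x) :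
    0 ≤ 2 * (∑ a, ∑ b, ∑ c, dm a (Sm ψ w) x c b * dm c (DU.Mf ψ w) x a b)
      - 2 * (∑ a, ∑ c, ∑ d, dm a (tau ψ) x c d
          * dm c (fun z => DU.Mf ψ w z * (Zm w z).transpose) x a d)
      + ∑ a, ∑ i, ∑ j, dm a (tau ψ) x i j * dm i (fun z => DU.Mf ψ w z * DU.sD w z) x a j := by
  have mτ : MD (tau ψ) x := hx.2
  have mN := md_N hw x
  have mZ := md_Z hw x
  have mM : MD (DU.Mf ψ w) x := (mτ.mul mN).mul mτ
  refine total_nonneg (t := tau ψ x) (K.tau_posDef h x).posSemidef (N := DU.sD w x) (Z := Zm w x)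
    (N_symm w x) (Ψ := fun c => Matrix.of fun a b => D3 ψ x c a b) (Ω := fun c => dm c (Zm w) x)
    (ν := fun c => dm c (DU.sD w) x) ?_ ?_ ?_ ?_ (p := fun a => dm a (tau ψ) x)
    (dM := fun c => dm c (DU.Mf ψ w) x) (dS := fun a => dm a (Sm ψ w) x)
    (dW1 := fun c => dm c (fun z => DU.Mf ψ w z * (Zm w z).transpose) x)
    (dW2 := fun i => dm i (fun z => DU.Mf ψ w z * DU.sD w z) x) ?_ ?_ ?_ ?_ ?_
  · intro c
    ext a b
    exact D3_symm' h x c b a
  · intro a c b
    exact D3_symm h hx a c b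
  · intro c
    ext a b
    rw [Matrix.transpose_apply, nu_apply hw, nu_apply hw, add_comm]
  · intro c a b
    show dm c (Zm w) x a b = dm c (DU.sD w) x a b + dm a (DU.sD w) x c b - dm b (DU.sD w) x c a
    rw [nu_apply hw, nu_apply hw, nu_apply hw, Om_symm hw x a c b, Om_symm hw x b c a,
      Om_symm hw x b a c]
    ring
  · intro a
    ext i j
    show pd a (fun z => tau ψ z i j) x = _
    rw [rad_dtau h hx]
    simp only [Matrix.neg_apply, Matrix.mul_apply, Matrix.of_apply, Finset.sum_mul]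
    congr 1
    rw [Finset.sum_comm]
  · intro c
    show dm c (fun z => tau ψ z * DU.sD w z * tau ψ z) x = _
    rw [dm_mul (mτ.mul mN) mτ, dm_mul mτ mN, Matrix.add_mul]
  · intro a
    exact dm_mul mτ mZ a
  · intro c
    exact dm_mul mM mZ.tr c
  · intro c
    exact dm_mul mM mN c

theorem tr_MZ (h : MM ψ V c C M) (x : E n) :
    (DU.Mf ψ w x * (Zm w x).transpose).trace = (tau ψ x * DU.sD w x * tau ψ x * DU.sD w x).trace := by
  have hM : (DU.Mf ψ w x).transpose = DU.Mf ψ w x := by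
    have ht : (tau ψ x).transpose = tau ψ x := by
      ext i j
      exact rad_tau_symm h x j i
    unfold DU.Mf
    rw [Matrix.transpose_mul, Matrix.transpose_mul, ht, N_symm, Matrix.mul_assoc]
  have h1 : (DU.Mf ψ w x * (Zm w x).transpose).trace = (DU.Mf ψ w x * Zm w x).trace := by
    rw [← Matrix.trace_transpose, Matrix.transpose_mul, Matrix.transpose_transpose, hM,
      Matrix.trace_mul_comm]
  have h2 : DU.sD w x = (1 / 2 : ℝ) • (Zm w x + (Zm w x).transpose) := by
    ext a b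
    rw [sD_apply]
    rfl
  show _ = (DU.Mf ψ w x * DU.sD w x).trace
  rw [h2, Matrix.mul_smul, Matrix.trace_smul, Matrix.mul_add, Matrix.trace_add, h1]
  simp only [smul_eq_mul]
  ring

/-- **the dual key inequality, unnormalized** -/
theorem key_J (hV : ContDiff ℝ 2 V) (h : MM ψ V c C M) (hw : ∀ b, Test (w b)) :
    J V (fun x => (tau ψ x * DU.sD w x * tau ψ x * DU.sD w x).trace)
      + J V (fun x => (hess V x * tau ψ x * DU.sD w x * tau ψ x * DU.sD w x * tau ψ x).trace)
      ≤ 2 * J V (fun x => ∑ b, -(Lop ψ (w b) x) * DU.FM ψ V w b x) := by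
  have lτ := ml_tau h
  have lS := ml_S h hw
  have sS := ms_S (ψ := ψ) hw
  have lM := ml_M h hw
  have sM := ms_M (ψ := ψ) hw
  have lW1 : ML (fun z => DU.Mf ψ w z * (Zm w z).transpose) := lM.mul (ml_Z hw).tr
  have sW1 : MS (fun z => DU.Mf ψ w z * (Zm w z).transpose) :=
    sM.mul_right (B := fun z => (Zm w z).transpose)
  have lW2 : ML (fun z => DU.Mf ψ w z * DU.sD w z) := lM.mul (ml_N hw)
  have sW2 : MS (fun z => DU.Mf ψ w z * DU.sD w z) := sM.mul_right (B := DU.sD w)
  have a0 := J_LF hV h hw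
  have a1 := J_trace hV h lW1 sW1
  have a2 := J_trace hV h lW2 sW2
  -- pointwise identifications
  have b1 : (fun x => ∑ a, (DU.Mf ψ w x * (Zm w x).transpose) a a)
      = fun x => (tau ψ x * DU.sD w x * tau ψ x * DU.sD w x).trace :=
    funext fun x => tr_MZ h x
  have b2 : (fun x => ∑ a, (DU.Mf ψ w x * DU.sD w x) a a)
      = fun x => (tau ψ x * DU.sD w x * tau ψ x * DU.sD w x).trace := rfl
  have b3 : (fun x => ∑ a, ∑ i, ∑ j, hess V x a i * tau ψ x i j
        * (DU.Mf ψ w x * (Zm w x).transpose) a j)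
      = fun x => ∑ a, ∑ b, ∑ c, hess V x a c * Sm ψ w x c b * DU.Mf ψ w x a b := by
    funext x
    refine Finset.sum_congr rfl fun a _ => ?_
    rw [Finset.sum_comm (f := fun b c => hess V x a c * Sm ψ w x c b * DU.Mf ψ w x a b)]
    refine Finset.sum_congr rfl fun i _ => ?_
    have e1 : ∀ j, hess V x a i * tau ψ x i j * (DU.Mf ψ w x * (Zm w x).transpose) a j
        = ∑ b, hess V x a i * (tau ψ x i j * Zm w x j b) * DU.Mf ψ w x a b := by
      intro j
      rw [Matrix.mul_apply, Finset.mul_sum]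
      refine Finset.sum_congr rfl fun b _ => ?_
      rw [Matrix.transpose_apply]
      ring
    have e2 : ∀ b, hess V x a i * Sm ψ w x i b * DU.Mf ψ w x a b
        = ∑ j, hess V x a i * (tau ψ x i j * Zm w x j b) * DU.Mf ψ w x a b := by
      intro b
      show hess V x a i * (tau ψ x * Zm w x) i b * DU.Mf ψ w x a b = _
      rw [Matrix.mul_apply, Finset.mul_sum, Finset.sum_mul]
    rw [Finset.sum_congr rfl fun j _ => e1 j, Finset.sum_congr rfl fun b _ => e2 b,
      Finset.sum_comm]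
  have b4 : (fun x => ∑ a, ∑ i, ∑ j, hess V x a i * tau ψ x i j * (DU.Mf ψ w x * DU.sD w x) a j)
      = fun x => (hess V x * tau ψ x * DU.sD w x * tau ψ x * DU.sD w x * tau ψ x).trace := by
    funext x
    have ht : (tau ψ x).transpose = tau ψ x := by
      ext i j
      exact rad_tau_symm h x j i
    have e3 : hess V x * tau ψ x * DU.sD w x * tau ψ x * DU.sD w x * tau ψ x
        = hess V x * (tau ψ x * (DU.Mf ψ w x * DU.sD w x).transpose) := by
      unfold DU.Mf
      rw [Matrix.transpose_mul, Matrix.transpose_mul, Matrix.transpose_mul, ht, N_symm]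
      simp only [Matrix.mul_assoc]
    rw [e3]
    show _ = ∑ a, (hess V x * (tau ψ x * (DU.Mf ψ w x * DU.sD w x).transpose)) a a
    refine Finset.sum_congr rfl fun a _ => ?_
    rw [Matrix.mul_apply]
    refine Finset.sum_congr rfl fun i _ => ?_
    rw [Matrix.mul_apply, Finset.mul_sum]
    refine Finset.sum_congr rfl fun j _ => ?_
    rw [Matrix.transpose_apply]
    ring
  rw [b1, b3] at a1
  rw [b2, b4] at a2
  -- the nonnegative remainder
  have g1 : Gd (fun x => ∑ a, ∑ b, ∑ c, dm a (Sm ψ w) x c b * dm c (DU.Mf ψ w) x a b) :=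
    Gd.sum _ fun a => Gd.sum _ fun b => Gd.sum _ fun c =>
      ⟨(lS.dm_lb a c b).mul (lM.dm_lb c a b), (sS.dm a c b).mul_right⟩
  have g2 : ∀ W : E n → Mt n, ML W → MS W →
      Gd (fun x => ∑ a, ∑ i, ∑ j, dm a (tau ψ) x i j * dm i W x a j) := fun W lW sW =>
    Gd.sum _ fun a => Gd.sum _ fun i => Gd.sum _ fun j =>
      ⟨(lτ.dm_lb a i j).mul (lW.dm_lb i a j), (sW.dm i a j).mul_left⟩
  have gc : ∀ (r : ℝ) (f : E n → ℝ), Gd f → Gd (fun x => r * f x) := fun r f hf =>
    hf.mul_left (LL.const (n := n) r).lb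
  have hpos : 0 ≤ J V (fun x =>
      2 * (∑ a, ∑ b, ∑ c, dm a (Sm ψ w) x c b * dm c (DU.Mf ψ w) x a b)
      - 2 * (∑ a, ∑ c, ∑ d, dm a (tau ψ) x c d
          * dm c (fun z => DU.Mf ψ w z * (Zm w z).transpose) x a d)
      + ∑ a, ∑ i, ∑ j, dm a (tau ψ) x i j * dm i (fun z => DU.Mf ψ w z * DU.sD w z) x a j) := by
    apply J_nonneg
    filter_upwards [rad_good h] with x hx
    exact pt_nonneg h hw hx
  rw [J_add hV ((gc 2 _ g1).sub (gc 2 _ (g2 _ lW1 sW1))) (g2 _ lW2 sW2),
    J_sub hV (gc 2 _ g1) (gc 2 _ (g2 _ lW1 sW1)), J_mul, J_mul] at hpos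
  rw [a0]
  linarith

theorem Ex_eq (V f : E n → ℝ) : Ex V f = J V f / (∫ x, Real.exp (-V x)) := rfl

/-- **`StmtKeyD`** -/
theorem stmtKeyD : DU.StmtKeyD := by
  intro n ψ V c C M hV h w hw
  have h1 := key_J (hV.smooth.of_le (by norm_cast)) h hw
  have hZ : 0 ≤ ∫ x, Real.exp (-V x) := integral_nonneg fun x => (Real.exp_pos _).le
  rw [Ex_eq, Ex_eq, Ex_eq, ← add_div, ← mul_div_assoc]
  exact div_le_div_of_nonneg_right h1 hZ

end Vale.Agent.P227.M.DU922
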