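import Vale.Agent.P227.M.DU922.FB
import Vale.Agent.P227.M.ID.Stein294
import Vale.Agent.P227.M.LIN.AffStmt
import Vale.Agent.P227.M.LIN.EsaStmt929

/-! # P227/M/DU922: `StmtLocal` from `StmtMM` by the dual line (helper591, helper922)

Independent of `StmtKey`, `StmtDiv`, `StmtH1`, `StmtAff`, `StmtHilb`. -/

namespace Vale.Agent.P227.M.DU922

theorem stmtLocal_of_MM (hmm : StmtMM) : StmtLocal :=
  DU.stmtLocal_ofD B294.stmtStein B294.stmtIBP stmtKeyD Esa929.stmtESA LIN.stmtBoch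
    LIN.stmtConst stmtFB hmm

end Vale.Agent.P227.M.DU922
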